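import Vale.Agent.P281.H603.TE.Sub
import Vale.Agent.P281.H64.TU.Spec

/-!
# P281, project T-E (helper64): finite étale coverings of the fibres, statements of the blocks (FROZEN)

The fibres `F` of `T-U` may be replaced by their finite étale coverings: the additive functions on the
universal covering `E` of `f⁻¹(y)` are replaced by the additive functions for the characteristic
subgroup `core Γ m` of finite index of `Γ`. The Albanese maps are then multi-valued on the fibres of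
`f`: two lifts differ by a constant and an isomorphism of the polarized lattice of the periods.
-/

open Set Filter Metric MeasureTheory Vale.Agent.P281 Vale.Agent.P281.H713 Vale.Agent.P272.K
open Vale.Agent.P281.MF Vale.Agent.P281.ISO Vale.Agent.P281.ELL Vale.Agent.P281.H713.TZ
open Vale.Agent.P281.H64.Thin (IsThinSet)
open Vale.Agent.P281.H64.Gen (IsSmallSet IsSmall2 excSet NoExc ExcOne)
open Vale.Agent.P281.H64.TU (Tame KTame IsNondegR HasFormsT)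
open Vale.Agent.P281.H603.TE (sub fsub core)

open scoped Topology ContDiff Manifold ComplexConjugate ComplexOrder ENNReal NNReal

noncomputable section

namespace Vale.Agent.P281.H64.TK.TE

section AlbM

variable (E E' : Type) [NormedAddCommGroup E] [NormedSpace ℂ E]
  [NormedAddCommGroup E'] [NormedSpace ℂ E']
variable {X Y : Type} [TopologicalSpace X] [ChartedSpace E X]
  [TopologicalSpace Y] [ChartedSpace E' Y]
variable {V : Type} [NormedAddCommGroup V] [InnerProductSpace ℂ V] [FiniteDimensional ℂ V]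

/-- `TU.IsAlbR`, for multi-valued maps: `L a x β` means that `β` is one of the lifts near `x` of the
Albanese map number `a`. -/
structure IsAlbM {n : ℕ} (d r : ℕ) (T : Tame (Fin d → ℂ) X) (f : X → Y) (S : Set Y)
    (Q : (Fin n → ℝ) → (Fin n → ℝ) → ℝ) {ι : Type} (U : ι → Set Y)
    (π : ι → Y → ((Fin n → ℝ) ≃L[ℝ] V)) (L : ι → X → (X → V) → Prop) : Prop
    extends IsPeriodFamily E' S Q U π where
  coord : ∀ x, f x ∉ S → ∃ ζ : X → (Fin d → ℂ), IsFibreCoord E E' f ζ x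
  lift : ∀ a x, f x ∈ U a → ∃ β : X → V, L a x β
  liftHol : ∀ a x β, L a x β → ContMDiffAt 𝓘(ℂ, E) 𝓘(ℂ, V) ω β x
  near : ∀ a x β, L a x β → ∀ᶠ z in 𝓝 x, L a z β
  nondeg : ∀ a, ∀ y ∈ U a, ∃ (q : (Fin d → ℂ) → X) (v₀ : Fin d → ℂ),
    ContMDiffAt 𝓘(ℂ, Fin d → ℂ) 𝓘(ℂ, E) ω q v₀ ∧ (∀ᶠ v in 𝓝 v₀, f (q v) = y) ∧
    ∀ β : X → V, L a (q v₀) β → IsNondegR r (fun v => β (q v)) v₀
  bound : ∀ r K : ℝ, 0 < r → 0 < K → ∃ A : ℝ, ∀ (a : ι) (q : (Fin d → ℂ) → X) (v₀ : Fin d → ℂ),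
    IsPolydisc E f q v₀ r → T K q v₀ r → f (q v₀) ∈ U a → ∃ h : (Fin d → ℂ) → V,
    DifferentiableOn ℂ h (ball v₀ r) ∧
    (∃ β : X → V, L a (q v₀) β ∧ ∀ᶠ v in 𝓝 v₀, β (q v) = h v) ∧
    ∀ G : V ≃L[ℂ] V, (∀ x x', (inner ℂ (G (π a (f (q v₀)) x)) (G (π a (f (q v₀)) x'))).im =
      Q x x') → ∀ v ∈ ball v₀ (r / 2), ‖fderiv ℂ (fun u => G (h u)) v‖ ≤ A
  change : ∀ a b x, f x ∈ U a → f x ∈ U b → ∀ β β' : X → V, L a x β → L b x β' →
    ∃ (G : V ≃L[ℂ] V) (c : V), IsPeriodChange Q (π a (f x)) (π b (f x)) G ∧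
      ∀ᶠ z in 𝓝 x, f z = f x → β' z = G (β z) + c

end AlbM

/-- **E4** (port of `HasRStmt`; `change` = `H511.U.lift_changeG`, `bound` gives the lift over the
whole polydisc). -/
def HasMStmt : Prop :=
  ∀ (p d r n g : ℕ) (X Y : Type) [TopologicalSpace X] [ChartedSpace (Cm (p + d)) X]
    [IsManifold 𝓘(ℂ, Cm (p + d)) ω X] [TopologicalSpace Y] [ChartedSpace (Cm p) Y]
    [IsManifold 𝓘(ℂ, Cm p) ω Y] (T : Tame (Cm d) X) (f : X → Y) (S : Set Y)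
    (Q : (Fin n → ℝ) → (Fin n → ℝ) → ℝ) (ι : Type) (U : ι → Set Y)
    (π : ι → Y → ((Fin n → ℝ) ≃L[ℝ] EuclideanSpace ℂ (Fin g)))
    (L : ι → X → (X → EuclideanSpace ℂ (Fin g)) → Prop) (e₀ : Cm (p + d) ≃L[ℂ] (Cm p × Cm d))
    (Δ : Set X → ℝ), 0 < d → r ≤ d → ContMDiff 𝓘(ℂ, Cm (p + d)) 𝓘(ℂ, Cm p) ω f →
    IsAlbM (Cm (p + d)) (Cm p) d r T f S Q U π L → (∀ D, 0 ≤ Δ D) → ∀ y ∉ S,
    HasFormsT T f S e₀ Δ r y

/-- **E2**: `Γ` is finitely generated (as in F1), so `core Γ m` has finite index. -/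
def CoreStmt : Prop :=
  ∀ (d m : ℕ) (E Γ : Type) [TopologicalSpace E] [T2Space E] [SimplyConnectedSpace E] [Group Γ]
    [MulAction Γ E] [ContinuousConstSMul Γ E] (_ : Sheets d E Γ), 0 < d → (core Γ m).FiniteIndex

/-- In some model of `f` at `y`, the Gauss map of the covering of the fibre given by `core Γ m` has
rank at least `r` at some point. -/
def NDegE (n p d m r : ℕ) {Z Y : Type} [TopologicalSpace Z] [ChartedSpace (Cm n) Z]
    [TopologicalSpace Y] [ChartedSpace (Cm p) Y] (f : Z → Y) (y : Y) : Prop :=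
  ∃ (E Γ : Type) (_ : TopologicalSpace E) (_ : T2Space E) (_ : SimplyConnectedSpace E)
    (_ : Group Γ) (_ : MulAction Γ E) (_ : ContinuousConstSMul Γ E) (𝓕 : Fam p d E Γ)
    (q : Cm p → E → Z) (χ : OpenPartialHomeomorph Y (Cm p)) (t : Cm p) (ht : t ∈ 𝓕.T)
    (_ : (core Γ m).FiniteIndex), Model (n := n) f 𝓕 χ q ∧ χ.symm t = y ∧
      ∃ i, ∃ z ∈ ball (0 : Cm d) 3, (sub (𝓕.at t ht) (core Γ m)).GaussAt r i z

/-- **E5** (port of `DegStmt`). -/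
def DegEStmt : Prop :=
  ∀ (p d m r : ℕ) (Z Y : Type) [TopologicalSpace Z] [T2Space Z] [CompactSpace Z]
    [ChartedSpace (Cm (p + d)) Z] [IsManifold 𝓘(ℂ, Cm (p + d)) ω Z] [TopologicalSpace Y]
    [T2Space Y] [ChartedSpace (Cm p) Y] [IsManifold 𝓘(ℂ, Cm p) ω Y] (f : Z → Y) (S : Set Y)
    (w : Chart (p + d) Z → Cm (p + d) → Matrix (Fin (p + d)) (Fin (p + d)) ℂ), 0 < d →
    ContMDiff 𝓘(ℂ, Cm (p + d)) 𝓘(ℂ, Cm p) ω f → Function.Surjective f →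
    IsProperFibration (n := p + d) (p := p) f S → IsSmallSet (Cm p) S → IsPreconnected Sᶜ →
    IsKahler w → (∃ y ∉ S, NDegE (p + d) p d m r f y) →
    ∃ S' : Set Y, S ⊆ S' ∧ IsSmallSet (Cm p) S' ∧ ∀ y ∉ S', NDegE (p + d) p d m r f y

/-- **E3** (helper64; `TU.AlbRStmt` for the coverings). -/
def AlbEStmt : Prop :=
  ∀ (p d m r : ℕ) (Z Y : Type) [TopologicalSpace Z] [T2Space Z] [ChartedSpace (Cm (p + d)) Z]
    [IsManifold 𝓘(ℂ, Cm (p + d)) ω Z] [TopologicalSpace Y] [T2Space Y] [ChartedSpace (Cm p) Y]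
    [IsManifold 𝓘(ℂ, Cm p) ω Y] (f : Z → Y) (S : Set Y)
    (w : Chart (p + d) Z → Cm (p + d) → Matrix (Fin (p + d)) (Fin (p + d)) ℂ), 0 < d →
    ContMDiff 𝓘(ℂ, Cm (p + d)) 𝓘(ℂ, Cm p) ω f →
    IsProperFibration (n := p + d) (p := p) f S → IsPreconnected Sᶜ → IsKahler w →
    (∀ y ∉ S, NDegE (p + d) p d m r f y) → (∀ y ∉ S, ¬ NDegE (p + d) p d m (r + 1) f y) →
    Sᶜ.Nonempty →
    ∃ (g n : ℕ) (Q : (Fin n → ℝ) → (Fin n → ℝ) → ℝ) (ι : Type) (U : ι → Set Y)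
      (π : ι → Y → ((Fin n → ℝ) ≃L[ℝ] EuclideanSpace ℂ (Fin g)))
      (L : ι → Z → (Z → EuclideanSpace ℂ (Fin g)) → Prop),
      IsAlbM (Cm (p + d)) (Cm p) d r (KTame w) f S Q U π L

/-- `IsSquare`, without `inj`: `F` is a finite étale covering of `f⁻¹(y)`. -/
structure IsSquareE (n p d : ℕ) {X Y X₁ Y₁ F : Type} [TopologicalSpace X] [ChartedSpace (Cm n) X]
    [TopologicalSpace Y] [ChartedSpace (Cm p) Y] [TopologicalSpace X₁] [ChartedSpace (Cm n) X₁]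
    [TopologicalSpace Y₁] [ChartedSpace (Cm p) Y₁] [TopologicalSpace F] [ChartedSpace (Cm d) F]
    (f : X → Y) (f₁ : X₁ → Y₁) (u : X₁ → X) (v : Y₁ → Y) (S : Set Y) (S₁ : Set Y₁) (y : Y)
    (y₁ : Y₁) (i : F → X) : Prop where
  modif : TZ.S.IsModif (Cm n) u
  comm : ∀ x, f (u x) = v (f₁ x)
  hol : ContMDiff 𝓘(ℂ, Cm n) 𝓘(ℂ, Cm p) ω f
  hol₁ : ContMDiff 𝓘(ℂ, Cm n) 𝓘(ℂ, Cm p) ω f₁
  proper : IsProperFibration (n := n) (p := p) f S
  proper₁ : IsProperFibration (n := n) (p := p) f₁ S₁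
  out : y ∉ S
  out₁ : y₁ ∉ S₁
  pre : v ⁻¹' {y} = {y₁}
  fibre : H511.Surf.IsFibre (Cm n) (Cm d) f y i
  small : IsSmall2 (Cm d) (i ⁻¹' (u '' excSet (Cm n) u))

/-- **E6** (as `FibNStmt`). `F → f⁻¹(y)` is a covering with `m` sheets; the universal covering
`E → f₁⁻¹(y₁) → f⁻¹(y)` lifts to `p : E → F` (`E` is simply connected); `Γ` acts on the `m` points of
`F` over a point `x₀` of `f⁻¹(y)`, by `p_a ↦ p_a ∘ γ` (`p_a` the lift through `a`), so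
`p ∘ κ = p` for `κ ∈ core m Γ`, and the closed 1-forms of `F` define additive functions for
`core Γ m` on `E`. -/
def FibEStmt : Prop :=
  ∀ (p d r : ℕ) (X Y X₁ Y₁ : Type) [TopologicalSpace X] [T2Space X] [ChartedSpace (Cm (p + d)) X]
    [IsManifold 𝓘(ℂ, Cm (p + d)) ω X] [TopologicalSpace Y] [T2Space Y] [ChartedSpace (Cm p) Y]
    [IsManifold 𝓘(ℂ, Cm p) ω Y] [TopologicalSpace X₁] [T2Space X₁] [ChartedSpace (Cm (p + d)) X₁]
    [IsManifold 𝓘(ℂ, Cm (p + d)) ω X₁] [TopologicalSpace Y₁] [T2Space Y₁]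
    [ChartedSpace (Cm p) Y₁] [IsManifold 𝓘(ℂ, Cm p) ω Y₁] (f : X → Y) (f₁ : X₁ → Y₁) (u : X₁ → X)
    (v : Y₁ → Y) (S : Set Y) (S₁ : Set Y₁) (y : Y) (y₁ : Y₁) (F : Type) [TopologicalSpace F]
    [T2Space F] [ChartedSpace (Cm d) F] (i : F → X), 0 < d →
    IsSquareE (p + d) p d f f₁ u v S S₁ y y₁ i → ABStmt → CoreStmt → GaussRank d F r →
    ∃ m, NDegE (p + d) p d m r f₁ y₁

/-- **T-E**, the goal (assembly as `TUStmt`, for every `m`). -/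
def TEStmt : Prop :=
  ∀ (p d r : ℕ) (X Y X₁ Y₁ : Type) [tX : TopologicalSpace X] [cX : ChartedSpace (Cm (p + d)) X]
    [tY : TopologicalSpace Y] [cY : ChartedSpace (Cm p) Y] [TopologicalSpace X₁]
    [ChartedSpace (Cm (p + d)) X₁] [TopologicalSpace Y₁] [ChartedSpace (Cm p) Y₁]
    (f : X → Y) (Δ : Set X → ℝ) (f₁ : X₁ → Y₁) (Δ₁ : Set X₁ → ℝ), 0 < d →
    H511.Surf.IsFibration (Cm (p + d)) (Cm p) f Δ →
    H511.Surf.IsFibration (Cm (p + d)) (Cm p) f₁ Δ₁ →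
    TZ.S.IsStep (Cm (p + d)) (Cm p) f₁ Δ₁ f Δ →
    NoExc (Cm (p + d)) (Cm p) f₁ ∨ ExcOne (Cm (p + d)) (Cm p) f₁ Δ₁ →
    (∃ w : Chart (p + d) X₁ → Cm (p + d) → Matrix (Fin (p + d)) (Fin (p + d)) ℂ, IsKahler w) →
    ∃ H : ℕ → Set Y, (∀ k, IsThinSet (Cm p) (H k)) ∧ ∀ y, (∀ k, y ∉ H k) →
      ∀ (F : Type) [TopologicalSpace F] [T2Space F] [ChartedSpace (Cm d) F] (i : F → X),
        H511.Surf.IsFibre (Cm (p + d)) (Cm d) f y i → GaussRank d F r →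
        ((r : ℕ∞) : WithBot ℕ∞) +
          TZ.S.kap (Cm (p + d)) (Cm p) ⟨X, Y, tX, tY, cX, cY, f, Δ⟩ ≤
            TZ.S.kodX (Cm (p + d)) Δ

end Vale.Agent.P281.H64.TK.TE
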