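import Vale.Agent.P281.H64.TE.Stat
import Vale.Agent.P281.H303.TE.Fin

/-!
# P281: the theorem on Kähler fibrations and étale coverings, in the letters of the statement
-/

open Set
open Vale.Agent.P272.K (Chart IsKahler)
open Vale.Agent.P281 Vale.Agent.P281.H713.TZ.S
open Vale.Agent.P281.H511.Surf (IsFibration IsFibre)
open Vale.Agent.P281.H64.Thin (IsThinSet)
open scoped Manifold ContDiff Topology

noncomputable section

namespace Vale.Agent.P281.H64.StatE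

theorem gaussRank_iff {d : ℕ} {F : Type} [TopologicalSpace F] [ChartedSpace (Cm d) F] {r : ℕ} :
    GaussRank d F r ↔ TK.GaussRank d F r := Iff.rfl

theorem isCover_iff {d : ℕ} {F F' : Type} [TopologicalSpace F] [ChartedSpace (Cm d) F]
    [TopologicalSpace F'] [ChartedSpace (Cm d) F'] {π : F' → F} :
    IsCover d π ↔ H303.TE.IsCover d π :=
  ⟨fun h => ⟨h.2.1, h.2.2, h.1, h.2.3, h.2.4, h.2.5⟩,
    fun h => ⟨h.3, h.1, h.2, h.4, h.5, h.6, fun _ => rfl⟩⟩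

theorem cond_to {n d : ℕ} {X F : Type} [TopologicalSpace X] [ChartedSpace (Cm n) X]
    [TopologicalSpace F] [ChartedSpace (Cm d) F] {i : F → X} {Δ : Set X → ℝ}
    (h : Cond n d i Δ) : H303.TE.CondE n d i Δ := by
  obtain ⟨F', _, _, π, h1, h2⟩ := h
  exact ⟨F', _, _, π, isCover_iff.1 h1, h2⟩

theorem forFibres {n p d : ℕ} {X Y : Type} [tX : TopologicalSpace X] [cX : ChartedSpace (Cm n) X]
    [tY : TopologicalSpace Y] [cY : ChartedSpace (Cm p) Y] {f : X → Y} {Δ : Set X → ℝ}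
    (hf : IsFibration (Cm n) (Cm p) f Δ) {a : WithBot ℕ∞}
    (h : ∃ H : ℕ → Set Y, (∀ k, IsThinSet (Cm p) (H k)) ∧ ∀ y, (∀ k, y ∉ H k) →
      ∀ (F : Type) [TopologicalSpace F] [T2Space F] [ChartedSpace (Cm d) F] (i : F → X),
        H511.Surf.IsFibre (Cm n) (Cm d) f y i →
        (∀ r : ℕ, TK.GaussRank d F r → ((r : ℕ∞) : WithBot ℕ∞) + a ≤ kodX (Cm n) Δ) ∧
        (H303.TE.CondE n d i Δ → kodR (Cm n) (Cm d) i Δ + a ≤ kodX (Cm n) Δ)) :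
    ForFibres n p d f Δ a := by
  obtain ⟨H, hH, hmain⟩ := h
  refine ⟨H, hH, fun y hy F _ _ _ i hi => ⟨?_, fun hc => (hmain y hy F i hi).2 (cond_to hc)⟩⟩
  rintro r ⟨F', _, _, π, h1, h2⟩
  have := h1.1
  have := hf.manifold.1
  exact (hmain y hy F' (fun t => i (π t)) ((isCover_iff.1 h1).fibre hi)).1 r h2

/-- `κ(f | Δ) ≤ kodF f Δ` for a neat fibration `f` -/
theorem kap_self {n p : ℕ} {X Y : Type} [tX : TopologicalSpace X] [cX : ChartedSpace (Cm n) X]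
    [tY : TopologicalSpace Y] [cY : ChartedSpace (Cm p) Y] {f : X → Y} {Δ : Set X → ℝ}
    (h : IsFibration (Cm n) (Cm p) f Δ) (he : NoExc n p f ∨ ExcOne n p f Δ) :
    kap (Cm n) (Cm p) ⟨X, Y, tX, tY, cX, cY, f, Δ⟩ ≤ kodF n p Δ (id : X → X) f := by
  have hk := H364.Gen.kapLe_of H303.UF.crit H383.Gen.compl H364.Gen.compStmt h
  obtain ⟨⟨_, _⟩, _, _, ⟨_, _⟩, hf₁, hc₁, hΔ₁⟩ := h
  have hg : ∃ Γ : Set Y → ℝ, Γ = base (Cm n) (Cm p) f Δ ∧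
      ({G | Γ G ≠ 0}.Finite ∧ (∀ G, Γ G ≠ 0 → J.IsPrime (Cm p) G) ∧
      (∀ G, ∃ q : ℚ, Γ G = q ∧ 0 ≤ q ∧ q ≤ 1) ∧
      (∀ z G, Γ G ≠ 0 → f z ∈ G →
        z ∈ closure {z' | (∃ G, Γ G ≠ 0 ∧ f z' ∈ G) ∧
          ∀ᶠ y in 𝓝 (f z'), SNCAt (Cm p) Γ y}) ∧
      OrbMor (Cm n) (Cm p) f Δ Γ) := by
    rcases he with he | he
    · exact ⟨_, rfl, H364.Gen.base0 n p X Y f Δ hf₁ hc₁ hΔ₁ he _ rfl⟩
    · exact ⟨_, rfl, H364.Gen.base1 n p X Y f Δ hf₁ hc₁ hΔ₁ he _ rfl⟩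
  obtain ⟨Γ, hΓ, g1, g2, g3, g4, g5⟩ := hg
  exact (hk _ g1 g2 g3 g4 g5).2 _ X tX cX f Δ (.refl _) hΓ

theorem ForFibres.mono {n p d : ℕ} {X Y : Type} [TopologicalSpace X] [ChartedSpace (Cm n) X]
    [TopologicalSpace Y] [ChartedSpace (Cm p) Y] {f : X → Y} {Δ : Set X → ℝ}
    {a b : WithBot ℕ∞} (h : ForFibres n p d f Δ b) (hab : a ≤ b) : ForFibres n p d f Δ a := by
  obtain ⟨H, hH, hmain⟩ := h
  refine ⟨H, hH, fun y hy F _ _ _ i hi => ⟨fun r hr => ?_, fun hc => ?_⟩⟩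
  · exact (add_le_add le_rfl hab).trans ((hmain y hy F i hi).1 r hr)
  · exact (add_le_add le_rfl hab).trans ((hmain y hy F i hi).2 hc)

theorem stat {p d : ℕ} (hd : 0 < d) {X Y : Type} [tX : TopologicalSpace X]
    [cX : ChartedSpace (Cm (p + d)) X] [tY : TopologicalSpace Y] [cY : ChartedSpace (Cm p) Y]
    (f : X → Y) (Δ : Set X → ℝ) (hf : IsFibration (Cm (p + d)) (Cm p) f Δ) :
    (∀ (X₁ Y₁ : Type) [TopologicalSpace X₁] [ChartedSpace (Cm (p + d)) X₁]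
      [TopologicalSpace Y₁] [ChartedSpace (Cm p) Y₁] (f₁ : X₁ → Y₁) (Δ₁ : Set X₁ → ℝ),
      IsModel (p + d) p f₁ Δ₁ f Δ →
        ForFibres (p + d) p d f Δ (kodF (p + d) p Δ₁ (id : X₁ → X₁) f₁) ∧
        KapLe (Cm (p + d)) (Cm p) f₁ Δ₁ (kodF (p + d) p Δ₁ (id : X₁ → X₁) f₁) ∧
        (NoExc (p + d) p f₁ ∨ ExcOne (p + d) p f₁ Δ₁ → ForFibres (p + d) p d f Δ
          (kap (Cm (p + d)) (Cm p) ⟨X, Y, tX, tY, cX, cY, f, Δ⟩))) ∧
    ((∃ w : Chart (p + d) X → Cm (p + d) → Matrix (Fin (p + d)) (Fin (p + d)) ℂ, IsKahler w) →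
      ForFibres (p + d) p d f Δ (kodF (p + d) p Δ (id : X → X) f) ∧
      KapLe (Cm (p + d)) (Cm p) f Δ (kodF (p + d) p Δ (id : X → X) f) ∧
      (NoExc (p + d) p f ∨ ExcOne (p + d) p f Δ → ForFibres (p + d) p d f Δ
          (kap (Cm (p + d)) (Cm p) ⟨X, Y, tX, tY, cX, cY, f, Δ⟩))) := by
  constructor
  · rintro X₁ Y₁ _ _ _ _ f₁ Δ₁ ⟨h₁, hs, hw⟩
    exact ⟨forFibres hf (H303.TE.teM f Δ f₁ Δ₁ hd hf h₁ hs hw),
      (H303.TE.teK f₁ Δ₁ hd h₁ hw).2, fun he => forFibres hf (H303.TE.teQ f Δ f₁ Δ₁ hd hf h₁ hs he hw)⟩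
  · intro hw
    obtain ⟨h1, h2⟩ := H303.TE.teK f Δ hd hf hw
    exact ⟨forFibres hf h1, h2, fun he => (forFibres hf h1).mono (kap_self hf he)⟩

end Vale.Agent.P281.H64.StatE
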